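import Vale.Agent.P215Z.Core.Defs

/-!
# P215: absorption of the error terms of the potential
-/

noncomputable section

namespace Vale.Agent.P215Z.Abs

open MvPolynomial Matrix

variable {O : Type} [CommRing O] {σ E : Type}

/-- all entries lie in the ideal -/
def In (J : Ideal O) (x : M2 O) : Prop := ∀ i j, x i j ∈ J

namespace In

variable {J K : Ideal O} {x y : M2 O}

theorem mono (h : In J x) (e : J ≤ K) : In K x := fun i j => e (h i j)

theorem zero : In J 0 := fun _ _ => J.zero_mem

theorem add (h : In J x) (h' : In J y) : In J (x + y) := fun i j => J.add_mem (h i j) (h' i j)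

theorem neg (h : In J x) : In J (-x) := fun i j => J.neg_mem (h i j)

theorem sub (h : In J x) (h' : In J y) : In J (x - y) := fun i j => J.sub_mem (h i j) (h' i j)

theorem mul (h : In J x) (h' : In K y) : In (J * K) (x * y) := fun i j => by
  rw [Matrix.mul_apply]
  exact Ideal.sum_mem _ fun k _ => Ideal.mul_mem_mul (h i k) (h' k j)

theorem mul_right (h : In J x) (y : M2 O) : In J (x * y) := fun i j => by
  rw [Matrix.mul_apply]
  exact Ideal.sum_mem _ fun k _ => J.mul_mem_right _ (h i k)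

theorem mul_left (y : M2 O) (h : In J x) : In J (y * x) := fun i j => by
  rw [Matrix.mul_apply]
  exact Ideal.sum_mem _ fun k _ => J.mul_mem_left _ (h k j)

theorem smul (r : O) (h : In J x) : In J (r • x) := fun i j => J.mul_mem_left r (h i j)

theorem lie (h : In J x) (h' : In K y) : In (J * K) ⁅x, y⁆ :=
  (h.mul h').sub ((h'.mul h).mono (mul_comm K J).le)

theorem lie_left (h : In J x) (y : M2 O) : In J ⁅x, y⁆ := (h.mul_right y).sub (h.mul_left y)

theorem lie_right (y : M2 O) (h : In J x) : In J ⁅y, x⁆ := (h.mul_left y).sub (h.mul_right y)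

theorem trace (h : In J x) : x.trace ∈ J := Ideal.sum_mem _ fun i _ => h i i

end In

theorem eval_sub_mem (J : Ideal O) {x y : σ → O} (h : ∀ v, y v - x v ∈ J) (f : MvPolynomial σ O) :
    eval y f - eval x f ∈ J := by
  induction f using MvPolynomial.induction_on with
  | C a => simp
  | add p q hp hq =>
    rw [map_add, map_add, add_sub_add_comm]
    exact J.add_mem hp hq
  | mul_X p v hp =>
    rw [map_mul, map_mul, eval_X, eval_X, show eval y p * y v - eval x p * x v =
      (eval y p - eval x p) * y v + eval x p * (y v - x v) by ring]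
    exact J.add_mem (J.mul_mem_right _ hp) (J.mul_mem_left _ (h v))

/-- Taylor's formula to first order -/
theorem taylor [Fintype σ] [DecidableEq σ] (J : Ideal O) {x y : σ → O} (h : ∀ v, y v - x v ∈ J)
    (f : MvPolynomial σ O) :
    eval y f - eval x f - ∑ v, (y v - x v) * eval x (pderiv v f) ∈ J * J := by
  induction f using MvPolynomial.induction_on with
  | C a => simp
  | add p q hp hq =>
    simp only [map_add, mul_add, Finset.sum_add_distrib]
    convert (J * J).add_mem hp hq using 1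
    ring
  | mul_X p v hp =>
    have h1 : ∑ w, (y w - x w) * eval x (pderiv w (p * X v)) =
        (∑ w, (y w - x w) * eval x (pderiv w p)) * x v + (y v - x v) * eval x p := by
      simp only [Derivation.leibniz, smul_eq_mul, map_add, map_mul, eval_X, mul_add,
        Finset.sum_add_distrib, Finset.sum_mul, pderiv_X]
      rw [add_comm]
      congr 1
      · exact Finset.sum_congr rfl fun w _ => by ring
      · rw [Finset.sum_eq_single v (fun w _ hw => by simp [Pi.single_eq_of_ne' hw]) (by simp)]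
        simp
    rw [h1, map_mul, map_mul, eval_X, eval_X]
    convert (J * J).add_mem ((J * J).mul_mem_right (x v) hp)
      (Ideal.mul_mem_mul (eval_sub_mem J h p) (h v)) using 1
    ring

/-- Nakayama for a nilpotent ideal -/
theorem le_of_nil {a M N : Ideal O} {K : ℕ} (ha : a ^ K = ⊥) (h : M ≤ N ⊔ a * M) : M ≤ N := by
  have h1 : ∀ k, M ≤ N ⊔ a ^ k * M := fun k => by
    induction k with
    | zero => simp
    | succ k ih =>
      refine h.trans (sup_le le_sup_left ((Ideal.mul_mono_right ih).trans ?_))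
      rw [Ideal.mul_sup, pow_succ', mul_assoc]
      exact sup_le_sup_right Ideal.mul_le_right _
  simpa [ha] using h1 K

variable (Ψ : MvPolynomial (E × I2) O)

/-- the value of a polynomial in matrix letters -/
def val (n : E → M2 O) : MvPolynomial (E × I2) O →+* O := eval fun v => n v.1 v.2.1 v.2.2

/-- the transposed gradient -/
def grad (n : E → M2 O) (c : E) : M2 O := fun i j => val n (pderiv (c, (j, i)) Ψ)

/-- the moment ideal -/
def MM (n : E → M2 O) : Ideal O := Ideal.span {f | ∃ c i j, f = ⁅n c, grad Ψ n c⁆ i j}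

theorem in_MM (n : E → M2 O) (c : E) : In (MM Ψ n) ⁅n c, grad Ψ n c⁆ :=
  fun i j => Ideal.subset_span ⟨c, i, j, rfl⟩

theorem MM_le {n : E → M2 O} {J : Ideal O} (h : ∀ c, In J ⁅n c, grad Ψ n c⁆) : MM Ψ n ≤ J :=
  Ideal.span_le.2 (by
    rintro _ ⟨c, i, j, rfl⟩
    exact h c i j)

theorem grad_sub {J : Ideal O} {n n' : E → M2 O} (h : ∀ c, In J (n' c - n c)) (c : E) :
    In J (grad Ψ n' c - grad Ψ n c) := fun i j =>
  eval_sub_mem J (x := fun v : E × I2 => n v.1 v.2.1 v.2.2) (y := fun v => n' v.1 v.2.1 v.2.2)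
    (fun v => by simpa using h v.1 v.2.1 v.2.2) (pderiv (c, (j, i)) Ψ)

theorem MM_eq {a : Ideal O} {K : ℕ} (ha : a ^ K = ⊥) {n n' : E → M2 O} (hn : ∀ c, In a (n c))
    (hg : ∀ c, In a (grad Ψ n c)) (h : ∀ c, In (MM Ψ n) (n' c - n c)) : MM Ψ n' = MM Ψ n := by
  have h0 : MM Ψ n ≤ a := MM_le Ψ fun c => (hn c).lie_left _
  have h1 : ∀ c, In (a * MM Ψ n) (⁅n' c, grad Ψ n' c⁆ - ⁅n c, grad Ψ n c⁆) := fun c => by
    have h2 : In a (n' c) := by simpa using ((h c).mono h0).add (hn c)
    have h3 := (h2.lie (grad_sub Ψ h c)).add (((h c).lie (hg c)).mono (mul_comm _ _).le)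
    convert h3 using 1
    simp only [Ring.lie_def]
    noncomm_ring
  refine le_antisymm (MM_le Ψ fun c => ?_) (le_of_nil ha (MM_le Ψ fun c => ?_))
  · simpa using ((h1 c).mono Ideal.mul_le_right).add (in_MM Ψ n c)
  · simpa using ((in_MM Ψ n' c).mono le_sup_left).sub ((h1 c).mono le_sup_right)

variable [Fintype E] [DecidableEq E]

theorem shift (J : Ideal O) (n A : E → M2 O) (h : ∀ c, In J ⁅n c, A c⁆) :
    val (fun c => n c + ⁅n c, A c⁆) Ψ - (val n Ψ - ∑ c, (⁅n c, grad Ψ n c⁆ * A c).trace) ∈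
      J * J := by
  have h1 := taylor J (x := fun v : E × I2 => n v.1 v.2.1 v.2.2)
    (y := fun v => (n v.1 + ⁅n v.1, A v.1⁆) v.2.1 v.2.2) (fun v => by simpa using h v.1 _ _) Ψ
  have h2 : ∑ c, (⁅n c, grad Ψ n c⁆ * A c).trace = -∑ v : E × I2,
      ((n v.1 + ⁅n v.1, A v.1⁆) v.2.1 v.2.2 - n v.1 v.2.1 v.2.2) * val n (pderiv v Ψ) := by
    rw [Fintype.sum_prod_type, ← Finset.sum_neg_distrib]
    refine Finset.sum_congr rfl fun c _ => ?_
    have h3 : ∀ i j, val n (pderiv (c, (i, j)) Ψ) = grad Ψ n c j i := fun _ _ => rfl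
    simp only [Fintype.sum_prod_type, h3, Ring.lie_def, trace_fin_two, Matrix.mul_apply,
      Matrix.sub_apply, Matrix.add_apply, Fin.sum_univ_two]
    ring
  rw [h2]
  convert h1 using 1
  simp only [val]
  ring

theorem exists_rep (n : E → M2 O) (J : Ideal O) {f : O} (hf : f ∈ MM Ψ n * J) :
    ∃ A : E → M2 O, (∀ c, In J (A c)) ∧ f = ∑ c, (⁅n c, grad Ψ n c⁆ * A c).trace := by
  refine Submodule.mul_induction_on hf (fun m hm r hr => ?_) ?_
  · induction hm using Submodule.span_induction generalizing r with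
    | mem m hm =>
      obtain ⟨c, i, j, rfl⟩ := hm
      refine ⟨Pi.single c (Matrix.single j i r), fun c' => ?_, ?_⟩
      · by_cases h : c' = c
        · subst h
          intro i' j'
          rw [Pi.single_eq_same, Matrix.single_apply]
          split_ifs
          exacts [hr, J.zero_mem]
        · rw [Pi.single_eq_of_ne h]
          exact In.zero
      · rw [Finset.sum_eq_single c (fun c' _ h => by simp [Pi.single_eq_of_ne h]) (by simp),
          Pi.single_eq_same, trace_mul_single]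
        simp [mul_comm]
    | zero => exact ⟨0, fun _ => In.zero, by simp⟩
    | add m m' _ _ h h' =>
      obtain ⟨A, h1, h2⟩ := h r hr
      obtain ⟨B, h3, h4⟩ := h' r hr
      exact ⟨A + B, fun c => (h1 c).add (h3 c), by
        simp only [add_mul, h2, h4, Pi.add_apply, mul_add, trace_add, Finset.sum_add_distrib]⟩
    | smul s m _ h =>
      obtain ⟨A, h1, h2⟩ := h (s * r) (J.mul_mem_left s hr)
      exact ⟨A, h1, by rw [← h2, smul_eq_mul]; ring⟩
  · rintro _ _ ⟨A, h1, rfl⟩ ⟨B, h3, rfl⟩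
    exact ⟨A + B, fun c => (h1 c).add (h3 c), by
      simp only [Pi.add_apply, mul_add, trace_add, Finset.sum_add_distrib]⟩

/-- **Absorption.** -/
theorem absorb {a : Ideal O} {K : ℕ} (ha : a ^ K = ⊥) (I : E → Ideal O) (hI : ∀ c, I c ≤ a)
    (n : E → M2 O) (hn : ∀ c, In (I c) (n c)) (hg : ∀ c, In a (grad Ψ n c)) (A : E → M2 O)
    (hA : ∀ c, In (MM Ψ n) ⁅n c, A c⁆)
    (h : val n Ψ - ∑ c, (⁅n c, grad Ψ n c⁆ * A c).trace ∈ MM Ψ n * MM Ψ n) :
    ∃ n' : E → M2 O, (∀ c, In (I c) (n' c)) ∧ (∀ c, In (MM Ψ n) (n' c - n c)) ∧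
      MM Ψ n' = MM Ψ n ∧ val n' Ψ = 0 := by
  have hn' : ∀ c, In a (n c) := fun c => (hn c).mono (hI c)
  have key : ∀ k : ℕ, ∃ n' : E → M2 O, (∀ c, In (I c) (n' c)) ∧
      (∀ c, In (MM Ψ n) (n' c - n c)) ∧ val n' Ψ ∈ MM Ψ n * (a ^ k * MM Ψ n) := fun k => by
    induction k with
    | zero =>
      refine ⟨fun c => n c + ⁅n c, A c⁆, fun c => (hn c).add ((hn c).lie_left _),
        fun c => by simpa using hA c, ?_⟩
      simpa using Ideal.add_mem _ (shift Ψ _ n A hA) h
    | succ k ih =>
      obtain ⟨m, h1, h2, h3⟩ := ih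
      have e := MM_eq Ψ ha hn' hg h2
      obtain ⟨B, h4, h5⟩ := exists_rep Ψ m (a ^ k * MM Ψ n) (by rwa [e])
      have h6 : ∀ c, In (a ^ (k + 1) * MM Ψ n) ⁅m c, B c⁆ := fun c => by
        rw [pow_succ', mul_assoc]
        exact ((h1 c).mono (hI c)).lie (h4 c)
      refine ⟨fun c => m c + ⁅m c, B c⁆, fun c => (h1 c).add ((h1 c).lie_left _), fun c => ?_, ?_⟩
      · rw [add_sub_right_comm]
        exact (h2 c).add ((h6 c).mono Ideal.mul_le_right)
      · have h7 := shift Ψ _ m B h6
        rw [← h5, sub_self, sub_zero] at h7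
        exact Ideal.mul_mono_left Ideal.mul_le_right h7
  obtain ⟨m, h1, h2, h3⟩ := key K
  exact ⟨m, h1, h2, MM_eq Ψ ha hn' hg h2, by simpa [ha] using h3⟩

end Vale.Agent.P215Z.Abs
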